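import Vale.Agent.Lib.P154P.Tab.BT.Main
import Vale.Agent.Lib.P154P.Tab.BS.Main
import Vale.Agent.Lib.P154Q.Nptop.Lim
import Vale.Agent.Lib.P154Q.Npb2.Lim

/-!
The critical Poisson trees for `mu` in `[197/400, 1/2]`: two tables at the corners of two boxes, which bring the
defect of the functional below the range of the two local certificates.
-/

open Filter Topology

namespace Vale.Agent.Lib.P154P.Tab

open Vale.Agent.Lib.P154 Vale.Agent.Lib.P154P

/-- Nonreconstruction on the critical curve of the Poisson trees, for `mu` in `[197/400, 1/2]`. -/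
theorem poi_slab {μ : ℝ} (h0 : (197 / 400 : ℝ) ≤ μ) (h1 : μ ≤ 1 / 2) :
    Tendsto (Xbar (poissonLaw (1 / μ ^ 2)) (-μ)) atTop (𝓝 0) := by
  rcases le_total μ (991 / 2000) with h | h
  · exact Vale.Agent.Lib.P154Q.Npb2.lim (by linarith) h (BS.hN_box h0 h)
  · exact Vale.Agent.Lib.P154Q.Nptop.lim h h1 (BT.hN_box h h1)

end Vale.Agent.Lib.P154P.Tab
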